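import Vale.Agent.P054.Planar

/-!
# Pinned distinct distances in dense subsets of lattice boxes of arbitrary shape, `d ≥ 3`
-/

namespace Vale.Agent.Results.P054.LatticeBoxes

open Finset

theorem result (d : ℕ) (hd : 3 ≤ d) :
    ∃ c : ℝ, 0 < c ∧ ∀ (E : Type*) [NormedAddCommGroup E] [InnerProductSpace ℝ E]
      (v₀ : E) (v : Fin d → E), LinearIndependent ℝ v → ∀ (t : ℕ) (P : Finset E),
      (∀ p ∈ P, ∃ n : Fin d → ℕ, (∀ i, n i < t) ∧ p = v₀ + ∑ i, (n i : ℝ) • v i) →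
      2 ≤ P.card →
      ∃ x ∈ P, c * (P.card : ℝ) ^ 2 ≤ (t : ℝ) ^ (2 * d - 2) *
          (Set.ncard {r : ℝ | ∃ y ∈ P, y ≠ x ∧ r = dist x y} : ℝ) ∧
        ∀ α : ℝ, 0 < α → α * (t : ℝ) ^ d ≤ (P.card : ℝ) →
          c * α ^ 2 * (P.card : ℝ) ^ ((2 : ℝ) / d) ≤
            (Set.ncard {r : ℝ | ∃ y ∈ P, y ≠ x ∧ r = dist x y} : ℝ) := by
  classical
  obtain ⟨c, hc, h⟩ := Vale.Agent.P054.pinned_lower_high d hd
  refine ⟨c, hc, fun E _ _ v₀ v hv t P hP h2 => ?_⟩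
  choose! n hn hp using hP
  let toS : E → (Fin d → ℤ) := fun p i => (n p i : ℤ)
  have hval : ∀ p ∈ P, v₀ + ∑ i, (toS p i : ℝ) • v i = p := fun p hpP => by
    simp only [toS, Int.cast_natCast]
    exact (hp p hpP).symm
  have hinj : Set.InjOn toS P := fun p hpP q hqP he => by
    rw [← hval p hpP, ← hval q hqP, he]
  have hcard : (P.image toS).card = P.card := Finset.card_image_of_injOn hinj
  have hSb : ∀ x ∈ P.image toS, ∀ i, 0 ≤ x i ∧ x i < (t : ℤ) := by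
    intro x hx i
    obtain ⟨p, hpP, rfl⟩ := mem_image.1 hx
    exact ⟨Int.natCast_nonneg _, Int.ofNat_lt.2 (hn p hpP i)⟩
  obtain ⟨_, hxS, key⟩ := h E v hv t _ hSb (hcard ▸ h2)
  obtain ⟨x, hx, rfl⟩ := mem_image.1 hxS
  refine ⟨x, hx, ?_⟩
  have hset : {r : ℝ | ∃ y ∈ P, y ≠ x ∧ r = dist x y} =
      ↑(((P.image toS).erase (toS x)).image fun y : Fin d → ℤ =>
        dist (∑ i, (toS x i : ℝ) • v i) (∑ i, (y i : ℝ) • v i)) := by
    ext r
    simp only [coe_image, Set.mem_image, mem_coe, mem_erase, mem_image]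
    constructor
    · rintro ⟨y, hy, hyx, rfl⟩
      refine ⟨toS y, ⟨fun e => hyx (hinj hy hx e), y, hy, rfl⟩, ?_⟩
      conv_rhs => rw [← hval x hx, ← hval y hy, dist_add_left]
    · rintro ⟨z, ⟨hne, y, hy, rfl⟩, rfl⟩
      refine ⟨y, hy, fun e => hne (e ▸ rfl), ?_⟩
      conv_rhs => rw [← hval x hx, ← hval y hy, dist_add_left]
  rw [hset, Set.ncard_coe_finset]
  rw [hcard] at key
  set D : ℝ := ((((P.image toS).erase (toS x)).image fun y : Fin d → ℤ =>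
        dist (∑ i, (toS x i : ℝ) • v i) (∑ i, (y i : ℝ) • v i)).card : ℝ)
  refine ⟨key, fun α hα hαt => ?_⟩
  have htd : P.card ≤ t ^ d := by
    rw [← hcard]
    refine (card_le_card (t := Fintype.piFinset fun _ : Fin d => Finset.Ico (0 : ℤ) t)
      fun z hz => ?_).trans (by simp [Fintype.card_piFinset])
    exact Fintype.mem_piFinset.2 fun i => mem_Ico.2 (hSb z hz i)
  have hPt : (P.card : ℝ) ^ ((2 : ℝ) / d) ≤ (t : ℝ) ^ 2 := by
    calc (P.card : ℝ) ^ ((2 : ℝ) / d) ≤ ((t : ℝ) ^ d) ^ ((2 : ℝ) / d) :=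
          Real.rpow_le_rpow (Nat.cast_nonneg _) (by exact_mod_cast htd) (by positivity)
      _ = (t : ℝ) ^ (2 : ℝ) := by
          rw [← Real.rpow_natCast_mul (Nat.cast_nonneg _), mul_div_cancel₀]
          exact Nat.cast_ne_zero.2 (by omega)
      _ = (t : ℝ) ^ 2 := by norm_num
  have ht : (0 : ℝ) < t := by
    have : 0 < t ^ d := lt_of_lt_of_le (by omega) htd
    exact_mod_cast Nat.pos_of_ne_zero fun h0 => by simp [h0, show d ≠ 0 by omega] at this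
  have hsq : α ^ 2 * (t : ℝ) ^ 2 * (t : ℝ) ^ (2 * d - 2) ≤ (P.card : ℝ) ^ 2 := by
    rw [mul_assoc, ← pow_add, show 2 + (2 * d - 2) = d * 2 by omega, pow_mul, ← mul_pow]
    gcongr
  refine le_of_mul_le_mul_right ?_ (pow_pos ht (2 * d - 2))
  calc c * α ^ 2 * (P.card : ℝ) ^ ((2 : ℝ) / d) * (t : ℝ) ^ (2 * d - 2)
      ≤ c * α ^ 2 * (t : ℝ) ^ 2 * (t : ℝ) ^ (2 * d - 2) := by gcongr
    _ = c * (α ^ 2 * (t : ℝ) ^ 2 * (t : ℝ) ^ (2 * d - 2)) := by ring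
    _ ≤ c * (P.card : ℝ) ^ 2 := by gcongr
    _ ≤ (t : ℝ) ^ (2 * d - 2) * D := key
    _ = D * (t : ℝ) ^ (2 * d - 2) := by ring

end Vale.Agent.Results.P054.LatticeBoxes
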